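import Vale.Agent.P240.R2.H406.PDefs
import Vale.Agent.P240.R2.H487.DO4

/-!
The groups `PΩ_n^+(5)` at the prime `2` (block O5+), part (O4): the assembly.
-/

set_option autoImplicit false
set_option linter.all false

namespace Vale.Agent.P240.R2.H19

open Matrix Subgroup Vale.Agent.P240.K
open Vale.Agent.P240.R2.H145.EO (B ac OD rf rf_mem)
open Vale.Agent.P240.R2.H401.D (POD SD0)
open Vale.Agent.P240.R2.H487 (AutTop autTop_of)
open Vale.Agent.P240.R2.H406

universe w

section
variable {n : ℕ} {a : Fin n → ZMod 5}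

lemma card_symmDiff2 (S T : Finset (Fin n)) :
    (((symmDiff S T).card : ℕ) : ZMod 2) = (S.card : ZMod 2) + T.card := by
  have h1 : (symmDiff S T).card = (S \ T).card + (T \ S).card := by
    rw [symmDiff_def, Finset.sup_eq_union, Finset.card_union_of_disjoint]
    exact disjoint_sdiff_sdiff
  have h2 : (S \ T).card + (S ∩ T).card = S.card := Finset.card_sdiff_add_card_inter S T
  have h3 : (T \ S).card + (S ∩ T).card = T.card := by
    rw [Finset.inter_comm]; exact Finset.card_sdiff_add_card_inter T S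
  have h4 : (symmDiff S T).card + 2 * (S ∩ T).card = S.card + T.card := by omega
  have h5 : (((symmDiff S T).card + 2 * (S ∩ T).card : ℕ) : ZMod 2) =
      ((S.card + T.card : ℕ) : ZMod 2) := by rw [h4]
  push_cast at h5
  have h6 : (2 : ZMod 2) = 0 := by decide
  rw [h6, zero_mul, add_zero] at h5
  exact h5

lemma filter_symmDiff (p : Fin n → Prop) [DecidablePred p] (S T : Finset (Fin n)) :
    (symmDiff S T).filter p = symmDiff (S.filter p) (T.filter p) := by
  ext i
  simp only [Finset.mem_filter, Finset.mem_symmDiff]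
  tauto

lemma par_symmDiff (J J' : Finset (Fin n)) : par a (symmDiff J J') = par a J + par a J' := by
  unfold par
  rw [filter_symmDiff, filter_symmDiff, card_symmDiff2, card_symmDiff2]
  rfl

lemma par_empty : par a ∅ = 0 := by
  unfold par
  simp

lemma par_one {i : Fin n} (hi : a i = 1) : par a {i} = (1, 0) := by
  unfold par
  rw [Finset.filter_singleton, Finset.filter_singleton, if_pos hi, if_neg (by rw [hi]; decide)]
  simp

lemma par_two {i : Fin n} (hi : a i = 2) : par a {i} = (0, 1) := by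
  unfold par
  rw [Finset.filter_singleton, Finset.filter_singleton, if_neg (by rw [hi]; decide), if_pos hi]
  simp

lemma add_self (v : ZMod 2 × ZMod 2) : v + v = 0 := by
  revert v; decide

lemma par_univ (h : PNum a) : par a Finset.univ = 0 := by
  unfold par
  have h1 := (ZMod.natCast_eq_zero_iff _ 2).2 (even_iff_two_dvd.1 h.ev1)
  have h2 := (ZMod.natCast_eq_zero_iff _ 2).2 (even_iff_two_dvd.1 h.ev2)
  rw [h1, h2]
  rfl

/-- the action of a sign change on the simple group -/
noncomputable def S (a : Fin n → ZMod 5) (J : Finset (Fin n)) : MulAut (Lam a) := Phi a (sg a J)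

lemma S_mul (J J' : Finset (Fin n)) : S a J * S a J' = S a (symmDiff J J') := by
  unfold S
  rw [← map_mul, sg_mul]

lemma S_empty : S a ∅ = 1 := by
  unfold S
  rw [sg_empty, map_one]

lemma S_self (J : Finset (Fin n)) : S a J * S a J = 1 := by
  rw [S_mul, symmDiff_self]
  exact S_empty

lemma S_comm (J J' : Finset (Fin n)) : S a J * S a J' = S a J' * S a J := by
  rw [S_mul, S_mul, symmDiff_comm]

lemma S_inv (J : Finset (Fin n)) : (S a J)⁻¹ = S a J := inv_eq_of_mul_eq_one_left (S_self J)

lemma sg_inj {J J' : Finset (Fin n)} (h : sg a J = sg a J') : J = J' := by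
  have h1 : act (sg a J) (fun _ => (1 : ZMod 5)) = act (sg a J') (fun _ => (1 : ZMod 5)) := by
    rw [h]
  rw [act_sg, act_sg] at h1
  ext k
  have h2 : (if k ∈ J then - (1 : ZMod 5) else 1) = (if k ∈ J' then - (1 : ZMod 5) else 1) :=
    congrFun h1 k
  by_cases h3 : k ∈ J <;> by_cases h4 : k ∈ J'
  · exact ⟨fun _ => h4, fun _ => h3⟩
  · rw [if_pos h3, if_neg h4] at h2
    exact absurd h2 (by decide)
  · rw [if_neg h3, if_pos h4] at h2
    exact absurd h2 (by decide)
  · exact ⟨fun h => absurd h h3, fun h => absurd h h4⟩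

lemma mem_A0 {f : MulAut (Lam a)} : f ∈ A0 a ↔ ∃ J, par a J = 0 ∧ f = S a J := by
  constructor
  · intro h
    refine Subgroup.closure_induction (p := fun f _ => ∃ J, par a J = 0 ∧ f = S a J) ?_ ?_ ?_ ?_ h
    · intro x hx
      exact hx
    · exact ⟨∅, par_empty, S_empty.symm⟩
    · rintro x y _ _ ⟨J, h1, rfl⟩ ⟨J', h2, rfl⟩
      exact ⟨symmDiff J J', by rw [par_symmDiff, h1, h2, add_zero], S_mul J J'⟩
    · rintro x _ ⟨J, h1, rfl⟩
      exact ⟨J, h1, S_inv J⟩
  · rintro ⟨J, h1, rfl⟩
    exact Subgroup.subset_closure ⟨J, h1, rfl⟩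

lemma phi_mem_inn {g : ↥(OD a)} (hg : g ∈ SD0 a) :
    Phi a g ∈ (MulAut.conj (G := Lam a)).range := by
  refine ⟨⟨QuotientGroup.mk' (Subgroup.center ↥(OD a)) g, hg⟩, ?_⟩
  rw [← MulAut.conjNormal_val]
  rfl

lemma inn_mem {f : MulAut (Lam a)} (hf : f ∈ (MulAut.conj (G := Lam a)).range) :
    ∃ g ∈ SD0 a, f = Phi a g := by
  obtain ⟨x, rfl⟩ := hf
  obtain ⟨g, hg⟩ := QuotientGroup.mk'_surjective (Subgroup.center ↥(OD a)) x.1
  refine ⟨g, ?_, ?_⟩
  · show QuotientGroup.mk' (Subgroup.center ↥(OD a)) g ∈ commutator (POD a)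
    rw [hg]
    exact x.2
  · rw [← MulAut.conjNormal_val]
    show _ = MulAut.conjNormal (QuotientGroup.mk' (Subgroup.center ↥(OD a)) g)
    rw [hg]

lemma comm_le : commutator ↥(OD a) ≤ SD0 a := by
  intro g hg
  show QuotientGroup.mk' (Subgroup.center ↥(OD a)) g ∈ commutator (POD a)
  have h1 : QuotientGroup.mk' (Subgroup.center ↥(OD a)) g ∈
      (commutator ↥(OD a)).map (QuotientGroup.mk' (Subgroup.center ↥(OD a))) :=
    ⟨g, hg, rfl⟩
  rw [commutator_def, Subgroup.map_commutator] at h1
  rw [commutator_def]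
  exact Subgroup.commutator_mono le_top le_top h1

lemma exists_one (h : PNum a) : ∃ i k : Fin n, i ≠ k ∧ a i = 1 ∧ a k = 1 := by
  have h1 : 1 < (Finset.univ.filter fun i => a i = 1).card := by
    have := h.one
    omega
  obtain ⟨i, hi, k, hk, hik⟩ := Finset.one_lt_card.1 h1
  exact ⟨i, k, hik, (Finset.mem_filter.1 hi).2, (Finset.mem_filter.1 hk).2⟩

lemma exists_two (h : PNum a) : ∃ j : Fin n, a j = 2 := by
  have h1 : 0 < (Finset.univ.filter fun i => a i = 2).card := by
    have := h.two
    omega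
  obtain ⟨j, hj⟩ := Finset.card_pos.1 h1
  exact ⟨j, (Finset.mem_filter.1 hj).2⟩

lemma pair_eq {i k : Fin n} (hik : i ≠ k) : ({i, k} : Finset (Fin n)) = symmDiff {i} {k} := by
  ext j
  simp only [Finset.mem_insert, Finset.mem_singleton, Finset.mem_symmDiff]
  constructor
  · rintro (rfl | rfl)
    · exact Or.inl ⟨rfl, hik⟩
    · exact Or.inr ⟨rfl, hik.symm⟩
  · rintro (⟨h, -⟩ | ⟨h, -⟩)
    · exact Or.inl h
    · exact Or.inr h

lemma par_class (h : PNum a) {i k : Fin n} (hik : a i = a k) : par a {i} = par a {k} := by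
  rcases h.val i with h1 | h1
  · rw [par_one h1, par_one (hik ▸ h1)]
  · rw [par_two h1, par_two (hik ▸ h1)]

lemma par_pair (h : PNum a) {i k : Fin n} (hne : i ≠ k) (hik : a i = a k) :
    par a {i, k} = 0 := by
  rw [pair_eq hne, par_symmDiff, par_class h hik, add_self]

lemma S_ker (hKer : StmtKer) (h : PNum a) {J J' : Finset (Fin n)} (hJ : S a J = S a J') :
    par a J = par a J' := by
  have h1 : S a (symmDiff J J') = 1 := by
    rw [← S_mul, hJ, S_self]
  have h2 : par a (symmDiff J J') = 0 := by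
    rcases (hKer n a h _).1 h1 with h3 | h3
    · rw [← sg_empty] at h3
      rw [sg_inj h3, par_empty]
    · rw [sg_inj h3, par_univ h]
  rw [par_symmDiff] at h2
  have h3 : par a J + par a J' + par a J' = par a J' := by rw [h2, zero_add]
  rwa [add_assoc, add_self, add_zero] at h3

/-- the generic case -/
lemma core (hGen : StmtGen) (hKer : StmtKer) (hMem : StmtMem) (hCyc : StmtCyc.{w})
    (h : PNum a) {𝕜 : Type w} [Field 𝕜] {i₀ j₀ : Fin n} (hi₀ : a i₀ = 1) (hj₀ : a j₀ = 2)
    {E E₁ : Subgroup (MulAut (Lam a))} (hE : ∀ f ∈ E, ∃ J, f = S a J) (hEE : E₁ ≤ E)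
    (hA : A0 a ≤ E₁) (J₀ ρ₁ ρ₂ : Finset (Fin n))
    (hcase : (J₀ = {i₀, j₀} ∧ ρ₁ = {i₀} ∧ ρ₂ = {j₀}) ∨ (J₀ = {j₀} ∧ ρ₁ = ∅ ∧ ρ₂ = {j₀}) ∨
      (J₀ = {i₀} ∧ ρ₁ = {i₀} ∧ ρ₂ = ∅) ∨ (J₀ = {i₀} ∧ ρ₁ = {i₀} ∧ ρ₂ = {i₀}) ∨
      (J₀ = ∅ ∧ ρ₁ = ∅ ∧ ρ₂ = ∅))
    (hρ₁ : ρ₁ ⊆ J₀) (hρ₂ : ρ₂ ⊆ J₀)
    (c1 : ∀ J, ∃ J' ⊆ J₀, S a (symmDiff J J') ∈ E₁)
    (c2 : ∀ J' ⊆ J₀, S a J' ∈ E₁ → J' = ∅)
    (c5 : S a (symmDiff {i₀} ρ₁) ∈ E₁) (c6 : S a (symmDiff {j₀} ρ₂) ∈ E₁) :
    ∃ D ≤ E, E₁ ⊔ D = E ∧ E₁ ⊓ D = ⊥ ∧
      ∃ y : MulAut (Lam a), H487.cj y E₁ ≤ ((MulAut.conj (G := Lam a)).range ⊔ E₁) ⊓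
          centralizer (D : Set (MulAut (Lam a))) ∧
        ∃ (α : Ch 𝕜 (Subgroup (MulAut (Lam a)))) (φ : List (Subgroup (MulAut (Lam a)))),
          TopCycle 𝕜 2 (((MulAut.conj (G := Lam a)).range ⊔ E₁) ⊓
            centralizer (D : Set (MulAut (Lam a)))) (H487.cj y E₁) α φ := by
  classical
  -- the elements of `E₁` depend only on the parities
  have hpar : ∀ {J J' : Finset (Fin n)}, par a J = par a J' → S a J ∈ E₁ → S a J' ∈ E₁ := by
    intro J J' hJ hm
    have h1 : S a J' = S a J * S a (symmDiff J J') := by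
      rw [S_mul, ← symmDiff_assoc, symmDiff_self, bot_symmDiff]
    rw [h1]
    exact mul_mem hm (hA (mem_A0.2 ⟨_, by rw [par_symmDiff, hJ, add_self], rfl⟩))
  -- the complement
  obtain ⟨D, hD⟩ : ∃ D : Subgroup (MulAut (Lam a)), ∀ f, f ∈ D ↔ f ∈ E ∧ ∃ J ⊆ J₀, f = S a J := by
    refine ⟨{ carrier := {f | f ∈ E ∧ ∃ J ⊆ J₀, f = S a J}, mul_mem' := ?_, one_mem' := ?_,
              inv_mem' := ?_ }, fun f => Iff.rfl⟩
    · rintro x y ⟨hx, J, hJ, rfl⟩ ⟨hy, J', hJ', rfl⟩
      refine ⟨mul_mem hx hy, symmDiff J J', ?_, S_mul J J'⟩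
      intro i hi
      rcases Finset.mem_symmDiff.1 hi with h1 | h1
      · exact hJ h1.1
      · exact hJ' h1.1
    · exact ⟨one_mem _, ∅, Finset.empty_subset _, S_empty.symm⟩
    · rintro x ⟨hx, J, hJ, rfl⟩
      exact ⟨inv_mem hx, J, hJ, S_inv J⟩
  have hDE : D ≤ E := fun f hf => ((hD f).1 hf).1
  refine ⟨D, hDE, ?_, ?_, 1, ?_, ?_⟩
  · apply le_antisymm (sup_le hEE hDE)
    intro f hf
    obtain ⟨J, rfl⟩ := hE f hf
    obtain ⟨J', hJ', h1⟩ := c1 J
    have h2 : S a J = S a (symmDiff J J') * S a J' := by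
      rw [S_mul, symmDiff_assoc, symmDiff_self, symmDiff_bot]
    have h3 : S a J' ∈ E := by
      have h4 : S a J' = (S a (symmDiff J J'))⁻¹ * S a J := by
        rw [h2, inv_mul_cancel_left]
      rw [h4]
      exact mul_mem (inv_mem (hEE h1)) hf
    rw [h2]
    exact mul_mem (Subgroup.mem_sup_left h1)
      (Subgroup.mem_sup_right ((hD _).2 ⟨h3, J', hJ', rfl⟩))
  · rw [eq_bot_iff]
    rintro f ⟨h1, h2⟩
    obtain ⟨-, J, hJ, rfl⟩ := (hD f).1 h2
    rw [c2 J hJ h1, S_empty]
    exact one_mem _
  · rw [H487.cj_one]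
    refine le_inf le_sup_right ?_
    intro f hf
    rw [mem_centralizer_iff]
    intro g hg
    obtain ⟨-, J, hJ, rfl⟩ := (hD g).1 hg
    obtain ⟨J', rfl⟩ := hE f (hEE hf)
    exact S_comm J J'
  · rw [H487.cj_one]
    -- the elements of the group
    have hM : ∀ x : Fin n → ZMod 5, (∀ i ∈ J₀, x i = 0) → B a x x ≠ 0 →
        Phi a (rfl' a x * sg a (if IsSquare (B a x x) then ρ₁ else ρ₂)) ∈
          ((MulAut.conj (G := Lam a)).range ⊔ E₁) ⊓ centralizer (D : Set (MulAut (Lam a))) := by
      intro x hx hxx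
      have hn3 : 3 ≤ n := by
        have h1 := h.one
        have h2 : (Finset.univ.filter fun i => a i = 1).card ≤ n := by
          calc _ ≤ (Finset.univ : Finset (Fin n)).card := Finset.card_le_card (Finset.filter_subset _ _)
            _ = n := by rw [Finset.card_univ, Fintype.card_fin]
        omega
      have hgen := (hGen n a hn3 h.val ⟨i₀, hi₀⟩ ⟨j₀, hj₀⟩).2.2 x hxx
      have key : ∀ (i : Fin n) (ρ : Finset (Fin n)), (IsSquare (B a x x) ↔ IsSquare (a i)) →
          S a (symmDiff {i} ρ) ∈ E₁ → ρ ⊆ J₀ → Phi a (rfl' a x * sg a ρ) ∈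
            ((MulAut.conj (G := Lam a)).range ⊔ E₁) ⊓
              centralizer (D : Set (MulAut (Lam a))) := by
        intro i ρ h1 h2 h3
        refine ⟨?_, ?_⟩
        · have h4 : rfl' a x * sg a ρ = (rfl' a x * sg a {i}) * sg a (symmDiff {i} ρ) := by
            rw [← sg_mul, mul_assoc (rfl' a x), ← mul_assoc (sg a {i}), sg_mul_self, one_mul]
          rw [h4, map_mul]
          exact mul_mem (Subgroup.mem_sup_left (phi_mem_inn (comm_le (hgen i h1))))
            (Subgroup.mem_sup_right h2)
        · show _ ∈ centralizer (D : Set (MulAut (Lam a)))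
          rw [mem_centralizer_iff]
          intro g hg
          obtain ⟨-, J, hJ, rfl⟩ := (hD g).1 hg
          have h5 : act (sg a J) x = x := by
            rw [act_sg]
            funext k
            by_cases hk : k ∈ J
            · rw [if_pos hk, hx k (hJ hk), neg_zero]
            · rw [if_neg hk]
          have h6 : sg a J * rfl' a x = rfl' a x * sg a J := by
            have := rfl'_conj (sg a J) x
            rw [h5] at this
            conv_rhs => rw [← this]
            rw [mul_assoc, inv_mul_cancel, mul_one]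
          unfold S
          rw [← map_mul, ← map_mul]
          congr 1
          rw [← mul_assoc, h6, mul_assoc, sg_comm, ← mul_assoc]
      by_cases hsq : IsSquare (B a x x)
      · rw [if_pos hsq]
        refine key i₀ ρ₁ ?_ c5 hρ₁
        rw [hi₀]
        exact ⟨fun _ => ⟨1, by decide⟩, fun _ => hsq⟩
      · rw [if_neg hsq]
        refine key j₀ ρ₂ ?_ c6 hρ₂
        rw [hj₀]
        refine ⟨fun h1 => absurd h1 hsq, fun h1 => absurd h1 ?_⟩
        decide
    obtain ⟨α, φ, hT⟩ := hCyc n a h i₀ j₀ hi₀ hj₀ J₀ ρ₁ ρ₂ hcase 𝕜 _ hM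
    refine ⟨α, φ, ?_⟩
    convert hT using 1
    -- `E₁` is the closure
    apply le_antisymm
    · intro f hf
      obtain ⟨J, rfl⟩ := hE f (hEE hf)
      have hind : ∀ K : Finset (Fin n), Disjoint K J₀ → ∃ R ⊆ J₀, S a (symmDiff K R) ∈
          Subgroup.closure {f | ∃ i ∉ J₀, f = Phi a (sg a {i} *
            sg a (if a i = 1 then ρ₁ else ρ₂))} ∧ S a (symmDiff K R) ∈ E₁ := by
        intro K
        induction K using Finset.induction_on with
        | empty =>
          intro _
          refine ⟨∅, Finset.empty_subset _, ?_, ?_⟩ <;>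
          · rw [symmDiff_self]
            show S a ∅ ∈ _
            rw [S_empty]
            exact one_mem _
        | insert i K hi ih =>
          intro hd
          rw [Finset.disjoint_insert_left] at hd
          obtain ⟨R, hR, h1, h2⟩ := ih hd.2
          obtain ⟨ρ, hρ⟩ : ∃ ρ, ρ = if a i = 1 then ρ₁ else ρ₂ := ⟨_, rfl⟩
          have hρJ : ρ ⊆ J₀ := by
            rw [hρ]
            split_ifs
            · exact hρ₁
            · exact hρ₂
          have h3 : S a (symmDiff {i} ρ) ∈ E₁ := by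
            rcases h.val i with h4 | h4
            · rw [hρ, if_pos h4]
              refine hpar ?_ c5
              rw [par_symmDiff, par_symmDiff, par_one hi₀, par_one h4]
            · rw [hρ, if_neg (by rw [h4]; decide)]
              refine hpar ?_ c6
              rw [par_symmDiff, par_symmDiff, par_two hj₀, par_two h4]
          have h4 : insert i K = symmDiff K {i} := by
            ext j
            simp only [Finset.mem_insert, Finset.mem_singleton, Finset.mem_symmDiff]
            constructor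
            · rintro (rfl | hj)
              · exact Or.inr ⟨rfl, hi⟩
              · refine Or.inl ⟨hj, ?_⟩
                rintro rfl
                exact hi hj
            · rintro (⟨hj, -⟩ | ⟨hj, -⟩)
              · exact Or.inr hj
              · exact Or.inl hj
          have h5 : symmDiff (insert i K) (symmDiff R ρ) =
              symmDiff (symmDiff K R) (symmDiff {i} ρ) := by
            rw [h4, symmDiff_assoc, symmDiff_assoc, ← symmDiff_assoc {i} R ρ,
              symmDiff_comm {i} R, symmDiff_assoc R]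
          refine ⟨symmDiff R ρ, ?_, ?_, ?_⟩
          · intro j hj
            rcases Finset.mem_symmDiff.1 hj with h6 | h6
            · exact hR h6.1
            · exact hρJ h6.1
          · rw [h5, ← S_mul]
            refine mul_mem h1 (Subgroup.subset_closure ⟨i, hd.1, ?_⟩)
            rw [← hρ, map_mul]
            exact (S_mul _ _).symm
          · rw [h5, ← S_mul]
            exact mul_mem h2 h3
      obtain ⟨R, hR, h1, h2⟩ := hind (J \ J₀) Finset.sdiff_disjoint
      have h3 : S a (symmDiff J (symmDiff (J \ J₀) R)) ∈ E₁ := by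
        rw [← S_mul]
        exact mul_mem hf h2
      have h4 : symmDiff J (symmDiff (J \ J₀) R) ⊆ J₀ := by
        intro j hj
        by_contra hcon
        have hjR : j ∉ R := fun h5 => hcon (hR h5)
        rcases Finset.mem_symmDiff.1 hj with h5 | h5
        · exact h5.2 (Finset.mem_symmDiff.2 (Or.inl ⟨Finset.mem_sdiff.2 ⟨h5.1, hcon⟩, hjR⟩))
        · rcases Finset.mem_symmDiff.1 h5.1 with h6 | h6
          · exact h5.2 (Finset.mem_sdiff.1 h6.1).1
          · exact hjR h6.1
      have h5 := c2 _ h4 h3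
      have h6 : J = symmDiff (J \ J₀) R := symmDiff_eq_bot.1 h5
      rw [h6]
      exact h1
    · rw [Subgroup.closure_le]
      rintro f ⟨i, hi, rfl⟩
      rw [map_mul]
      have h1 : Phi a (sg a {i}) * Phi a (sg a (if a i = 1 then ρ₁ else ρ₂)) =
          S a (symmDiff {i} (if a i = 1 then ρ₁ else ρ₂)) := S_mul _ _
      rw [h1]
      rcases h.val i with h4 | h4
      · rw [if_pos h4]
        refine hpar ?_ c5
        rw [par_symmDiff, par_symmDiff, par_one hi₀, par_one h4]
      · rw [if_neg (by rw [h4]; decide)]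
        refine hpar ?_ c6
        rw [par_symmDiff, par_symmDiff, par_two hj₀, par_two h4]

/-- (O4) the assembly -/
theorem stmtAut_of (hGen : StmtGen) (hSem : StmtSem) (hKer : StmtKer) (hMem : StmtMem)
    (hCyc : StmtCyc.{w}) : StmtAut.{w} := by
  classical
  intro n a h 𝕜 _
  obtain ⟨i₀, k₀, hik, hi₀, hk₀⟩ := exists_one h
  obtain ⟨j₀, hj₀⟩ := exists_two h
  have hij : i₀ ≠ j₀ := by
    rintro rfl
    rw [hi₀] at hj₀
    exact absurd hj₀ (by decide)
  have hkj : k₀ ≠ j₀ := by
    rintro rfl
    rw [hk₀] at hj₀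
    exact absurd hj₀ (by decide)
  have hinn : A0 a ≤ (MulAut.conj (G := Lam a)).range := by
    intro f hf
    obtain ⟨J, hJ, rfl⟩ := mem_A0.1 hf
    exact phi_mem_inn ((hMem n a h J).2 hJ)
  have hpairA : ∀ i k : Fin n, i ≠ k → a i = a k → S a {i, k} ∈ A0 a := fun i k h1 h2 =>
    mem_A0.2 ⟨_, par_pair h h1 h2, rfl⟩
  -- an automorphism commuting with `A0` is a sign change
  have hsem : ∀ f : MulAut (Lam a), (∀ y ∈ A0 a, f * y = y * f) → ∃ J, f = S a J := by
    intro f hf
    exact hSem n a h f fun i k h1 h2 => hf _ (hpairA i k h1 h2)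
  have : Finite (Lam a) := inferInstance
  refine autTop_of (A₀ := A0 a) hinn ⟨?_, ?_, ?_⟩ ?_ ?_
  · intro h0
    have h1 := hpairA i₀ k₀ hik (hi₀.trans hk₀.symm)
    rw [h0, mem_bot] at h1
    rcases (hKer n a h _).1 h1 with h2 | h2
    · rw [← sg_empty] at h2
      have := sg_inj h2
      exact absurd (this ▸ Finset.mem_insert_self i₀ {k₀}) (by simp)
    · have h3 := sg_inj h2
      have h4 : j₀ ∈ ({i₀, k₀} : Finset (Fin n)) := by
        rw [h3]; exact Finset.mem_univ _
      rcases Finset.mem_insert.1 h4 with h5 | h5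
      · exact hij h5.symm
      · exact hkj (Finset.mem_singleton.1 h5).symm
  · intro x hx y hy
    obtain ⟨J, -, rfl⟩ := mem_A0.1 hx
    obtain ⟨J', -, rfl⟩ := mem_A0.1 hy
    exact S_comm J J'
  · intro x hx
    obtain ⟨J, -, rfl⟩ := mem_A0.1 hx
    rw [pow_two]
    exact S_self J
  · intro f hf hcomm
    obtain ⟨J, rfl⟩ := hsem f hcomm
    obtain ⟨g, hg, h1⟩ := inn_mem hf
    have h2 : Phi a (g⁻¹ * sg a J) = 1 := by
      rw [map_mul, map_inv, ← h1]
      exact inv_mul_cancel _
    have h3 : sg a J ∈ SD0 a := by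
      have h4 : sg a J = g * (g⁻¹ * sg a J) := by group
      rw [h4]
      refine mul_mem hg ?_
      rcases (hKer n a h _).1 h2 with h5 | h5
      · rw [h5]; exact one_mem _
      · rw [h5]
        exact (hMem n a h _).2 (par_univ h)
    exact mem_A0.2 ⟨J, (hMem n a h J).1 h3, rfl⟩
  · intro E hE E₁ hEE hA
    have hES : ∀ f ∈ E, ∃ J, f = S a J := by
      intro f hf
      exact hsem f fun y hy => hE.2.1 f hf y (hEE (hA hy))
    -- the elements of `E₁` depend only on the parities
    have hpar : ∀ {J J' : Finset (Fin n)}, par a J = par a J' → S a J ∈ E₁ → S a J' ∈ E₁ := by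
      intro J J' hJ hm
      have h1 : S a J' = S a J * S a (symmDiff J J') := by
        rw [S_mul, ← symmDiff_assoc, symmDiff_self, bot_symmDiff]
      rw [h1]
      exact mul_mem hm (hA (mem_A0.2 ⟨_, by rw [par_symmDiff, hJ, add_self], rfl⟩))
    have hzero : ∀ {J : Finset (Fin n)}, par a J = 0 → S a J ∈ E₁ := fun hJ =>
      hA (mem_A0.2 ⟨_, hJ, rfl⟩)
    have hadd : ∀ {J J' : Finset (Fin n)}, S a J ∈ E₁ → S a J' ∈ E₁ →
        S a (symmDiff J J') ∈ E₁ := fun h1 h2 => by
      rw [← S_mul]; exact mul_mem h1 h2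
    have hval : ∀ v : ZMod 2 × ZMod 2, v = 0 ∨ v = (1, 0) ∨ v = (0, 1) ∨ v = (1, 1) := by
      decide
    have hpi : par a {i₀} = (1, 0) := par_one hi₀
    have hpj : par a {j₀} = (0, 1) := par_two hj₀
    have hpij : par a {i₀, j₀} = (1, 1) := by
      rw [pair_eq hij, par_symmDiff, hpi, hpj]
      rfl
    have hp0 : par a ∅ = 0 := par_empty
    have hsing : ∀ {J' : Finset (Fin n)} {i : Fin n}, J' ⊆ {i} → J' = ∅ ∨ J' = {i} := fun h1 =>
      Finset.subset_singleton_iff.1 h1
    have hdbl : ∀ {J' : Finset (Fin n)}, J' ⊆ {i₀, j₀} →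
        J' = ∅ ∨ J' = {i₀} ∨ J' = {j₀} ∨ J' = {i₀, j₀} := by
      intro J' h1
      by_cases hi : i₀ ∈ J' <;> by_cases hj : j₀ ∈ J'
      · right; right; right
        refine Finset.Subset.antisymm h1 ?_
        intro x hx
        rcases Finset.mem_insert.1 hx with rfl | hx
        · exact hi
        · rw [Finset.mem_singleton.1 hx]; exact hj
      · right; left
        ext x
        rw [Finset.mem_singleton]
        refine ⟨fun hx => ?_, fun hx => hx ▸ hi⟩
        rcases Finset.mem_insert.1 (h1 hx) with h2 | h2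
        · exact h2
        · rw [Finset.mem_singleton.1 h2] at hx
          exact absurd hx hj
      · right; right; left
        ext x
        rw [Finset.mem_singleton]
        refine ⟨fun hx => ?_, fun hx => hx ▸ hj⟩
        rcases Finset.mem_insert.1 (h1 hx) with h2 | h2
        · rw [h2] at hx
          exact absurd hx hi
        · exact Finset.mem_singleton.1 h2
      · left
        rw [Finset.eq_empty_iff_forall_notMem]
        intro x hx
        rcases Finset.mem_insert.1 (h1 hx) with h2 | h2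
        · exact hi (h2 ▸ hx)
        · exact hj (Finset.mem_singleton.1 h2 ▸ hx)
    by_cases h10 : S a {i₀} ∈ E₁
    · by_cases h01 : S a {j₀} ∈ E₁
      · -- everything
        have hall : ∀ J, S a J ∈ E₁ := by
          intro J
          rcases hval (par a J) with h1 | h1 | h1 | h1
          · exact hzero h1
          · exact hpar (hpi.trans h1.symm) h10
          · exact hpar (hpj.trans h1.symm) h01
          · refine hpar (J := {i₀, j₀}) (hpij.trans h1.symm) ?_
            rw [pair_eq hij]
            exact hadd h10 h01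
        refine core hGen hKer hMem hCyc h hi₀ hj₀ hES hEE hA ∅ ∅ ∅
          (Or.inr (Or.inr (Or.inr (Or.inr ⟨rfl, rfl, rfl⟩)))) (Finset.Subset.refl _)
          (Finset.Subset.refl _) (fun J => ⟨∅, Finset.Subset.refl _, hall _⟩)
          (fun J' hJ' _ => Finset.subset_empty.1 hJ') (hall _) (hall _)
      · -- even in the second class
        refine core hGen hKer hMem hCyc h hi₀ hj₀ hES hEE hA {j₀} ∅ {j₀}
          (Or.inr (Or.inl ⟨rfl, rfl, rfl⟩)) (Finset.empty_subset _)
          (Finset.Subset.refl _) ?_ ?_ ?_ ?_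
        · intro J
          rcases hval (par a J) with h1 | h1 | h1 | h1
          · refine ⟨∅, Finset.empty_subset _, hzero ?_⟩
            rw [par_symmDiff, h1, hp0]; rfl
          · refine ⟨∅, Finset.empty_subset _, hpar (J := {i₀}) ?_ h10⟩
            rw [par_symmDiff, h1, hp0, hpi]; rfl
          · refine ⟨{j₀}, Finset.Subset.refl _, hzero ?_⟩
            rw [par_symmDiff, h1, hpj]; rfl
          · refine ⟨{j₀}, Finset.Subset.refl _, hpar (J := {i₀}) ?_ h10⟩
            rw [par_symmDiff, h1, hpj, hpi]; rfl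
        · intro J' hJ' h2
          rcases hsing hJ' with rfl | rfl
          · rfl
          · exact absurd h2 h01
        · refine hpar (J := {i₀}) ?_ h10
          rw [par_symmDiff, hp0, add_zero]
        · exact hzero (by rw [par_symmDiff, add_self])
    · by_cases h01 : S a {j₀} ∈ E₁
      · -- even in the first class
        refine core hGen hKer hMem hCyc h hi₀ hj₀ hES hEE hA {i₀} {i₀} ∅
          (Or.inr (Or.inr (Or.inl ⟨rfl, rfl, rfl⟩))) (Finset.Subset.refl _)
          (Finset.empty_subset _) ?_ ?_ ?_ ?_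
        · intro J
          rcases hval (par a J) with h1 | h1 | h1 | h1
          · refine ⟨∅, Finset.empty_subset _, hzero ?_⟩
            rw [par_symmDiff, h1, hp0]; rfl
          · refine ⟨{i₀}, Finset.Subset.refl _, hzero ?_⟩
            rw [par_symmDiff, h1, hpi]; rfl
          · refine ⟨∅, Finset.empty_subset _, hpar (J := {j₀}) ?_ h01⟩
            rw [par_symmDiff, h1, hp0, hpj]; rfl
          · refine ⟨{i₀}, Finset.Subset.refl _, hpar (J := {j₀}) ?_ h01⟩
            rw [par_symmDiff, h1, hpj, hpi]; rfl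
        · intro J' hJ' h2
          rcases hsing hJ' with rfl | rfl
          · rfl
          · exact absurd h2 h10
        · exact hzero (by rw [par_symmDiff, add_self])
        · refine hpar (J := {j₀}) ?_ h01
          rw [par_symmDiff, hp0, add_zero]
      · by_cases h11 : S a {i₀, j₀} ∈ E₁
        · -- even
          refine core hGen hKer hMem hCyc h hi₀ hj₀ hES hEE hA {i₀} {i₀} {i₀}
            (Or.inr (Or.inr (Or.inr (Or.inl ⟨rfl, rfl, rfl⟩)))) (Finset.Subset.refl _)
            (Finset.Subset.refl _) ?_ ?_ ?_ ?_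
          · intro J
            rcases hval (par a J) with h1 | h1 | h1 | h1
            · refine ⟨∅, Finset.empty_subset _, hzero ?_⟩
              rw [par_symmDiff, h1, hp0]; rfl
            · refine ⟨{i₀}, Finset.Subset.refl _, hzero ?_⟩
              rw [par_symmDiff, h1, hpi]; rfl
            · refine ⟨{i₀}, Finset.Subset.refl _, hpar (J := {i₀, j₀}) ?_ h11⟩
              rw [par_symmDiff, h1, hpi, hpij]; rfl
            · refine ⟨∅, Finset.empty_subset _, hpar (J := {i₀, j₀}) ?_ h11⟩
              rw [par_symmDiff, h1, hp0, hpij]; rfl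
          · intro J' hJ' h2
            rcases hsing hJ' with rfl | rfl
            · rfl
            · exact absurd h2 h10
          · exact hzero (by rw [par_symmDiff, add_self])
          · refine hpar (J := {i₀, j₀}) ?_ h11
            rw [par_symmDiff, hpij, hpi, hpj]; rfl
        · -- nothing
          refine core hGen hKer hMem hCyc h hi₀ hj₀ hES hEE hA {i₀, j₀} {i₀} {j₀}
            (Or.inl ⟨rfl, rfl, rfl⟩) (by simp) (by simp) ?_ ?_ ?_ ?_
          · intro J
            rcases hval (par a J) with h1 | h1 | h1 | h1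
            · refine ⟨∅, Finset.empty_subset _, hzero ?_⟩
              rw [par_symmDiff, h1, hp0]; rfl
            · refine ⟨{i₀}, by simp, hzero ?_⟩
              rw [par_symmDiff, h1, hpi]; rfl
            · refine ⟨{j₀}, by simp, hzero ?_⟩
              rw [par_symmDiff, h1, hpj]; rfl
            · refine ⟨{i₀, j₀}, Finset.Subset.refl _, hzero ?_⟩
              rw [par_symmDiff, h1, hpij]; rfl
          · intro J' hJ' h2
            rcases hdbl hJ' with rfl | rfl | rfl | rfl
            · rfl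
            · exact absurd h2 h10
            · exact absurd h2 h01
            · exact absurd h2 h11
          · exact hzero (by rw [par_symmDiff, add_self])
          · exact hzero (by rw [par_symmDiff, add_self])

end

end Vale.Agent.P240.R2.H19
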